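import Vale.Agent.P062.Finish
import Vale.Agent.P062.Cert19.All

/-!
# Maker wins the Snaky achievement game in the plane
-/

namespace Vale.Agent.Results.P062.SnakyIsWinner

open Vale.Agent.P062

/-- Maker, moving first on the empty board, has a strategy that makes it own an allowed copy of
Snaky after finitely many turns against every play of Breaker. -/
theorem result : MakerHasWinningStrategy :=
  makerWins_of_certificate goodBelow_all roots (by decide +kernel) (by decide +kernel)
    (by decide +kernel) (by decide +kernel)

end Vale.Agent.Results.P062.SnakyIsWinner
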